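import Vale.Agent.P253Y.Res.Main

/-! Comparison of two smooth models of the same field. -/

set_option linter.all false

open IsLocalRing

namespace Vale.Agent.P253Y.Res.Fn

open Vale.Agent.P297Z Vale.Agent.P297Z.Sf

variable {K : Type} [Field K] [Algebra ℂ K] {S S' : Surf K}

theorem crv_ext {W : Submodule ℂ K} {C C' : Crv W} (h : C.pl.ring = C'.pl.ring) : C = C' := by
  obtain ⟨⟨r, d⟩, p⟩ := C
  obtain ⟨⟨r', d'⟩, p'⟩ := C'
  obtain rfl : r = r' := h
  rfl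

theorem crv_ne_top {W : Submodule ℂ K} (C : Crv W) : C.pl.ring ≠ ⊤ := fun e => by
  obtain ⟨t, -, ht⟩ := Pl.exists_ord_eq_one C.pl
  have := Pl.ord_nonneg_of_mem C.pl (x := t⁻¹) (e ▸ ValuationSubring.mem_top _)
  rw [Pl.ord_inv] at this
  omega

theorem two_pt (x : Pt S.W) : Two x.ring := two K S.model.td _ ((mdl S).geo x) (S.all.reg x)

/-- A point that dominates a regular point lies on a contracted curve. -/
theorem core {z : Subalgebra ℂ K} (hz : Geo z) (h2 : Two z) {x : Pt S.W} (hd : Dm z x.ring)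
    (hx : x.ring ≠ z) : ∃ C : Crv S.W, x.On C ∧ Ct.Dom z C.pl.ring := by
  obtain ⟨u, v, huv⟩ := h2
  have := hz.isLocalRing
  have hR := reg K S.model.td z ⟨u, huv.1.1⟩ ⟨v, huv.2.1.1⟩ hz huv
  have hle := hd.1
  obtain ⟨f, hf, hfz⟩ : ∃ f ∈ x.ring, f ∉ z := by
    by_contra hc
    exact hx (le_antisymm (fun f hf => by_contra fun h => hc ⟨f, hf, h⟩) hle)
  have := hR.ufd
  have := hz.frac
  obtain ⟨a, ⟨b, hb⟩, hab, e⟩ := IsFractionRing.exists_reduced_fraction z f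
  have b0 : (b : K) ≠ 0 := fun h => nonZeroDivisors.ne_zero hb (Subtype.ext h)
  have e1 : (a : K) = f * b := by
    rw [IsFractionRing.mk'_eq_div] at e
    exact (div_eq_iff b0).1 e
  have hbz : (b : K)⁻¹ ∉ z := fun h => hfz (by
    rw [← mul_inv_cancel_right₀ b0 f, ← e1]
    exact mul_mem a.2 h)
  have hbx : ¬ IsUnit (⟨b, hle b.2⟩ : x.ring) := fun h =>
    hbz (hd.2 b b.2 ((isUnit_iff_inv _).1 h).2)
  have := S.all.ufd x
  obtain ⟨t, ht, htb⟩ := WfDvdMonoid.exists_irreducible_factor hbx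
    (fun h => b0 (congrArg Subtype.val h))
  have ht' : Prime t := ht.prime
  obtain ⟨C, hC, -, -, hdvd⟩ := S.all.crv_of_irr x t ht'
  have := (Ideal.span_singleton_prime ht'.ne_zero).2 ht'
  let p : Ideal z := (Ideal.span {t}).comap (Subalgebra.inclusion hle)
  have hp : p.IsPrime := Ideal.comap_isPrime _ _
  have hmem : ∀ g : z, g ∈ p ↔ t ∣ ⟨g, hle g.2⟩ := fun g => Ideal.mem_span_singleton
  have hpm : p.IsMaximal := by
    by_contra hc
    obtain ⟨g, hg⟩ := hR.prin p hp hc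
    have k1 : b ∈ p := (hmem b).2 htb
    have k2 : a ∈ p := (hmem a).2 (by
      have : (⟨a, hle a.2⟩ : x.ring) = ⟨f, hf⟩ * ⟨b, hle b.2⟩ := Subtype.ext e1
      rw [this]
      exact htb.mul_left _)
    rw [hg] at k1 k2
    have k3 : IsUnit g := hab (Ideal.mem_span_singleton.1 k2) (Ideal.mem_span_singleton.1 k1)
    exact hp.ne_top (hg.trans (Ideal.span_singleton_eq_top.2 k3))
  refine ⟨C, hC, fun g hg => hC g (hle hg), fun g hg hi => by_contra fun hc => ?_⟩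
  have k1 : (⟨g, hg⟩ : z) ∈ p := by
    rw [eq_maximalIdeal hpm]
    exact (mem_max_iff _).2 (Or.inr hc)
  rcases (hdvd _).1 ((hmem _).1 k1) with h | h
  · have h' : g = 0 := h
    rw [h', inv_zero] at hc
    exact hc z.zero_mem
  · exact h.ne' (Pl.ord_unit C.pl (hC g (hle hg)) hi)

theorem dm_of {π : Pt S'.W → Pt S.W} (h : Dominates π) (y : Pt S'.W) : Dm (π y).ring y.ring := by
  obtain ⟨V, hV⟩ := Ct.exists_dom y.ring
  exact ⟨(h y).1, fun f hf h1 => (Cn.dom_down h hV).2 f hf (hV.1 _ h1)⟩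

theorem exists_pt {R : Subalgebra ℂ K} (hR : Geo R) {w : K} (hw : w ∈ S.W) (w0 : w ≠ 0)
    (h : ∀ a ∈ S.W, a / w ∈ R) : ∃ y : Pt S.W, Dm y.ring R := by
  have := hR.isLocalRing
  exact ⟨⟨_, w, hw, w0, _, hR.hasVal.ctr_isMaximal (chart_le h), rfl⟩, Mo.dm_ctr _⟩

/-- Two models are dominated by a third one. -/
theorem common (S₀ S₁ : Surf K) : ∃ (S' : Surf K) (π₀ : Pt S'.W → Pt S₀.W)
    (π₁ : Pt S'.W → Pt S₁.W), Dominates π₀ ∧ Dominates π₁ := by
  obtain ⟨S', π₀, h0, h⟩ := domAll K S₀ S₁.W S₁.model.fin S₁.model.ne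
  have h1 : ∀ y : Pt S'.W, ∃ x : Pt S₁.W, Dm x.ring y.ring := fun y => by
    obtain ⟨w, hw, w0, h2⟩ := h y
    exact exists_pt ((mdl S').geo y) hw w0 h2
  choose π₁ h1 using h1
  exact ⟨S', π₀, π₁, h0, fun y => ⟨(h1 y).1, fun f hf => (h1 y).van hf⟩⟩

theorem over_of {π : Pt S'.W → Pt S.W} (h : Dominates π) (z : Pt S.W) : Over S' z.ring :=
  fun x V h1 h2 => (cent K S).uniq V _ _ (Cn.dom_down h h1) h2 ▸ (h x).1

theorem up {π : Pt S'.W → Pt S.W} (h : Dominates π) (C : Crv S.W) :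
    ∃ C' : Crv S'.W, C'.pl.ring = C.pl.ring :=
  ((cent K S').ex _ C.const_mem (crv_ne_top C)).resolve_left fun ⟨y, hy⟩ =>
    (cent K S).not_crv _ C (Cn.dom_down h hy)

theorem trans {x : Pt S.W} {x' : Pt S'.W} (e : x'.ring = x.ring) {C : Crv S.W} (h : x.On C) :
    ∃ C' : Crv S'.W, C'.pl.ring = C.pl.ring := by
  refine ((cent K S').ex _ C.const_mem (crv_ne_top C)).resolve_left fun ⟨y, hy⟩ => ?_
  obtain ⟨V, h1, h2⟩ := (cent K S).lift x C h
  have h3 := (cent K S').uniq V y x' (Cn.dom_le ((mdl S').geo y) hy h1.le h2.const) (e ▸ h2)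
  exact (cent K S).not_crv x C (by rw [← e, ← h3]; exact hy)

theorem exists_off {D : Finset (Crv S.W)} {C : Crv S.W} (h : C ∉ D) :
    ∃ x : Pt S.W, x.On C ∧ Off D x := by
  obtain ⟨w, hw, h1⟩ := C.exists_in
  obtain ⟨x, h2, h3⟩ := (S.all.inf_pt C w hw h1).exists_notMem_finite
    (D.finite_toSet.biUnion fun C' hC' => S.all.fin_meet C C' fun e => h (e ▸ hC'))
  exact ⟨x, h2.1, fun C' hC' h4 => h3 (Set.mem_biUnion hC' ⟨h2.1, h4⟩)⟩

variable (S) in
/-- The valuation rings of the curves that are not in `D`. -/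
def Rg (D : Finset (Crv S.W)) : Set (ValuationSubring K) := {V | ∃ C, C ∉ D ∧ C.pl.ring = V}

theorem Rg_mono {D : Finset (Crv S.W)} {D' : Finset (Crv S'.W)}
    (h : ∀ x, Off D x → ∃ x', Off D' x' ∧ x'.ring = x.ring) : Rg S D ⊆ Rg S' D' := by
  rintro _ ⟨C, hC, rfl⟩
  obtain ⟨x, h1, h2⟩ := exists_off hC
  obtain ⟨x', h3, e⟩ := h x h2
  obtain ⟨C', h4⟩ := trans e h1
  exact ⟨C', fun h5 => h3 C' h5 fun f hf => h4 ▸ h1 f (e ▸ hf), h4⟩

variable (S S') in
theorem fin_out (D : Finset (Crv S.W)) : {C' : Crv S'.W | C'.pl.ring ∉ Rg S D}.Finite := by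
  refine ((Set.finite_iUnion fun i => finc K S' (chart S.W (S.x i)) (S.all.ft _)
    (S.model.frac _ (S.x_mem i) (S.x_ne i))).union
    ((D.finite_toSet.image fun C => C.pl.ring).preimage (f := fun C' : Crv S'.W => C'.pl.ring)
      fun _ _ _ _ => crv_ext)).subset fun C' hC' => ?_
  rcases (cent K S).ex _ C'.const_mem (crv_ne_top C') with ⟨x, hx⟩ | ⟨C, hC⟩
  · obtain ⟨i, hi⟩ := S.all.pt_cover x
    obtain ⟨m, hm, e, -⟩ := S.all.pt_chart x _ (S.x_mem i) hi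
    exact Or.inl (Set.mem_iUnion.2 ⟨i, m, hm, e ▸ hx⟩)
  · exact Or.inr ⟨C, by_contra fun h => hC' ⟨C, h, hC⟩, hC⟩

theorem piece {π : Pt S'.W → Pt S.W} (h : Dominates π) (D : Finset (Crv S.W)) {y : Pt S'.W}
    (hy : Off (fin_out S S' D).toFinset y) : Off D (π y) ∧ y.ring = (π y).ring := by
  have e : y.ring = (π y).ring := by
    by_contra hc
    obtain ⟨C', h1, h2⟩ := core ((mdl S).geo _) (two_pt _) (dm_of h y) hc
    refine hy C' ((fin_out S S' D).mem_toFinset.2 ?_) h1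
    rintro ⟨C, -, h3⟩
    exact (cent K S).not_crv _ C (h3 ▸ h2)
  refine ⟨fun C hC h1 => ?_, e⟩
  obtain ⟨C', h2⟩ := up h C
  refine hy C' ((fin_out S S' D).mem_toFinset.2 ?_) fun f hf => h2 ▸ h1 f (e ▸ hf)
  rintro ⟨C₂, h3, h4⟩
  exact h3 (crv_ext (h4.trans h2) ▸ hC)

/-- If no curve of `S` is contracted to `z`, the map to `S` is defined at `z`. -/
theorem iso (z : Pt S'.W) (h : ∀ C : Crv S.W, ¬ Ct.Dom z.ring C.pl.ring) :
    ∃ y : Pt S.W, Dm y.ring z.ring := by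
  obtain ⟨T, π, π', hπ, hπ'⟩ := common S S'
  have hz := (mdl S').geo z
  have hY : {y : Pt S.W | ∃ V, Ct.Dom z.ring V ∧ Ct.Dom y.ring V}.Finite := by
    refine (((Ng.fin_con (S := T) hz).biUnion
      (t := fun C => {y : Pt S.W | Ct.Dom y.ring C.pl.ring}) fun C _ =>
        Set.Subsingleton.finite fun a ha b hb => (cent K S).uniq _ a b ha hb).union
      ((Set.Subsingleton.finite (s := {x : Pt T.W | x.ring = z.ring})
        fun a ha b hb => Pt.ext (ha.trans hb.symm)).image π)).subset ?_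
    rintro y ⟨V, h1, h2⟩
    rcases (cent K T).ex V h1.const (Cn.ne_top S y h2) with ⟨x, hx⟩ | ⟨C, rfl⟩
    · have e1 := (cent K S).uniq V _ _ (Cn.dom_down hπ hx) h2
      have e2 := (cent K S').uniq V _ _ (Cn.dom_down hπ' hx) h1
      by_cases e : x.ring = z.ring
      · exact Or.inr ⟨x, e, e1⟩
      obtain ⟨C, h3, h4⟩ := core hz (two_pt z) (e2 ▸ dm_of hπ' x) e
      refine Or.inl (Set.mem_biUnion (x := C) h4 ?_)
      rcases (cent K S).ex _ C.const_mem (crv_ne_top C) with ⟨y', h5⟩ | ⟨C', h5⟩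
      · obtain ⟨V', h6, h7⟩ := (cent K T).lift x C h3
        have e3 := (cent K S).uniq V' _ _ (Cn.dom_down hπ h7)
          (Cn.dom_le ((mdl S).geo y') h5 h6.le h7.const)
        rw [← e1, e3]
        exact h5
      · exact absurd (h5 ▸ h4) (h C')
    · exact Or.inl (Set.mem_biUnion (x := C) h1 h2)
  obtain ⟨w, hw, w0, h1, -⟩ := S.all.avoid hY.toFinset ∅
  refine exists_pt hz hw w0 fun a ha => by_contra fun hc => ?_
  have := S'.all.ufd z
  have := S'.all.frac z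
  obtain ⟨V, h2, h3⟩ := Ct.exists_dom_not z.ring (x := a / w) fun hi => hc (by
    obtain ⟨b, hb⟩ := IsIntegrallyClosed.isIntegral_iff.1 hi
    exact hb ▸ b.2)
  rcases (cent K S).ex V h2.const (Cn.ne_top S' z h2) with ⟨y, hy⟩ | ⟨C, rfl⟩
  · exact h3 (hy.1 _ ((h1 y (hY.mem_toFinset.2 ⟨V, h2, hy⟩)).2 a ha))
  · exact h C h2

end Vale.Agent.P253Y.Res.Fn
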