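import Vale.Agent.P253Y.Fin.Main
import Vale.Agent.P253Y.Gl.Sk

/-! The statement `FINITE` of the block GLUE. -/

namespace Vale.Agent.P253Y.Gl

theorem finite66 : FINITE := fun _ _ _ htd M _ O h E =>
  Res.finite_of htd M O (fun m => by
    obtain ⟨A, ⟨h1, h2, h3⟩, n, hn, e⟩ := h.ch m
    exact ⟨A, h1, h2, fun n hn => (h3 n hn).imp fun _ e => e.symm, n, hn, e.symm⟩) h.two h.sep E

end Vale.Agent.P253Y.Gl
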