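import Vale.Agent.P253Y.Fin.A

/-! A smooth surface that is locally of finite type and satisfies the positivity condition on all
its open pieces is of finite type. -/

set_option linter.all false

open IsLocalRing

namespace Vale.Agent.P253Y.Res

open Vale.Agent.P297Z Vale.Agent.P297Z.Sf

variable {K : Type} [Field K] [Algebra ℂ K] {S S' : Surf K}

namespace Fn

theorem quad {ι : Type} (T : Finset ι) (M : ι → ι → ℚ) (F g : ι → ℚ) (hs : ∀ i j, M i j = M j i)
    (ho : ∀ i j, i ≠ j → 0 ≤ M i j) (hF : ∀ i ∈ T, 0 < F i)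
    (hn : ∀ i ∈ T, ∑ j ∈ T, F j * M j i < 0) (hg : ∀ i ∈ T, g i ≠ 0) (hT : T.Nonempty) :
    ∑ i ∈ T, ∑ j ∈ T, g i * (g j * M j i) < 0 := by
  have h1 : ∑ i ∈ T, ∑ j ∈ T, g i ^ 2 / F i * (F j * M j i) < 0 := by
    refine (Finset.sum_lt_sum_of_nonempty hT (g := fun _ => 0) fun i hi => ?_).trans_eq (by simp)
    rw [← Finset.mul_sum]
    exact mul_neg_of_pos_of_neg (div_pos (sq_pos_of_ne_zero (hg i hi)) (hF i hi)) (hn i hi)
  have h2 : ∑ i ∈ T, ∑ j ∈ T, g j ^ 2 / F j * (F i * M i j) < 0 := by rwa [Finset.sum_comm]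
  have h3 : ∑ i ∈ T, ∑ j ∈ T, 2 * (g i * (g j * M j i)) ≤ ∑ i ∈ T, ∑ j ∈ T,
      (g i ^ 2 / F i * (F j * M j i) + g j ^ 2 / F j * (F i * M i j)) := by
    refine Finset.sum_le_sum fun i hi => Finset.sum_le_sum fun j hj => ?_
    have a1 := hF i hi
    have a2 := hF j hj
    by_cases e : i = j
    · subst e
      field_simp
      linarith
    · have a3 : 0 ≤ (g i * F j - g j * F i) ^ 2 / (F i * F j) * M i j :=
        mul_nonneg (by positivity) (ho i j e)
      have a4 : g i ^ 2 / F i * (F j * M j i) + g j ^ 2 / F j * (F i * M i j) -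
          2 * (g i * (g j * M j i)) = (g i * F j - g j * F i) ^ 2 / (F i * F j) * M i j := by
        rw [hs j i]
        field_simp
        ring
      linarith
  simp only [Finset.sum_add_distrib, ← Finset.mul_sum] at h3 h1 h2 ⊢
  linarith

theorem inter_sum (T : Finset (Crv S.W)) (F : Crv S.W → ℤ) (A : Sf.Div S.W) :
    inter (∑ C ∈ T, F C • Finsupp.single C (1 : ℤ)) A =
      ∑ C ∈ T, F C * inter (Finsupp.single C 1) A := by
  rw [← interHom_apply S.all.toRR, map_sum, AddMonoidHom.finset_sum_apply]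
  refine Finset.sum_congr rfl fun C _ => ?_
  rw [map_zsmul, AddMonoidHom.zsmul_apply, smul_eq_mul, interHom_apply]

/-- The exceptional curves have a negative definite intersection matrix. -/
theorem negdef {π : Pt S'.W → Pt S.W} (h : Dominates π) (G : Sf.Div S'.W) (h0 : G ≠ 0)
    (hG : ∀ C ∈ G.support, C.pl.ring ∉ Rg S ∅) : inter G G < 0 := by
  classical
  have h1 : ∀ C : Crv S'.W, ∃ z : Pt S.W, C ∈ G.support → Ct.Dom z.ring C.pl.ring := fun C => by
    rcases (cent K S).ex _ C.const_mem (crv_ne_top C) with ⟨x, hx⟩ | ⟨C', hC⟩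
    · exact ⟨x, fun _ => hx⟩
    · exact ⟨S.all.pt_ne.some, fun h2 => absurd ⟨C', by simp, hC⟩ (hG C h2)⟩
  choose z hz using h1
  choose F hF hF' using fun x : Pt S.W => neg cent K S' x.ring ((mdl S).geo x) (over_of h x)
  have h2 : ∀ C ∈ G.support, ∀ y : Pt S'.W, y.On C → π y = z C := fun C hC y hy => by
    obtain ⟨V, a1, a2⟩ := (cent K S').lift y C hy
    exact (cent K S).uniq V _ _ (Cn.dom_down h a2)
      (Cn.dom_le ((mdl S).geo _) (hz C hC) a1.le a2.const)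
  have h3 : ∀ C ∈ G.support, ∑ C' ∈ G.support,
      F (z C') C' * inter (Finsupp.single C' 1) (Finsupp.single C 1) < 0 := by
    intro C hC
    have e : ∀ X, (∑ C' ∈ G.support, F (z C') C' • Finsupp.single C' (1 : ℤ)) X =
        if X ∈ G.support then F (z X) X else 0 := fun X => by
      simp [Finsupp.finset_sum_apply, Finsupp.single_apply]
    have a1 : (F (z C) - ∑ C' ∈ G.support, F (z C') C' • Finsupp.single C' (1 : ℤ)) C = 0 := by
      rw [Finsupp.sub_apply, e, if_pos hC, sub_self]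
    have a2 := Ng.inter_posPart a1 fun x C' b1 b2 => by
      rw [Finsupp.sub_apply, e]
      split_ifs with b3
      · rw [← h2 C hC x b1, ← h2 C' b3 x b2, sub_self]
      · by_cases b4 : Ct.Dom (z C).ring C'.pl.ring
        · simpa using (hF _ _ b4).1.le
        · simp [hF' _ _ b4]
    have a3 := inter_nonneg S'.all.inte (Z' := Finsupp.single C 1) le_sup_right
      (Finsupp.single_nonneg.2 zero_le_one) (Ng.disj (Z := (F (z C) - ∑ C' ∈ G.support,
        F (z C') C' • Finsupp.single C' (1 : ℤ)) ⊔ 0) (by rw [Finsupp.sup_apply, a1]; simp))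
    rw [← a2, Ng.inter_sub, inter_sum] at a3
    have a4 := (hF _ _ (hz C hC)).2
    omega
  have h4 := quad G.support
    (fun C C' => (inter (Finsupp.single C 1) (Finsupp.single C' 1) : ℤ))
    (fun C => (F (z C) C : ℤ)) (fun C => (G C : ℤ)) (fun C C' => by rw [inter_comm])
    (fun C C' e => by
      exact_mod_cast inter_nonneg S'.all.inte (Finsupp.single_nonneg.2 zero_le_one)
        (Finsupp.single_nonneg.2 zero_le_one) (Ng.disj (Finsupp.single_eq_of_ne e.symm)))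
    (fun C hC => by exact_mod_cast (hF _ _ (hz C hC)).1) (fun C hC => by exact_mod_cast h3 C hC)
    (fun C hC => by exact_mod_cast Finsupp.mem_support_iff.1 hC) (Finsupp.support_nonempty_iff.2 h0)
  have h5 : inter G G = ∑ C ∈ G.support, ∑ C' ∈ G.support,
      G C * (G C' * inter (Finsupp.single C' 1) (Finsupp.single C 1)) := by
    conv_lhs => rw [eq_sum_single G, inter_sum]
    refine Finset.sum_congr rfl fun C _ => ?_
    rw [inter_comm, inter_sum, Finset.mul_sum]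
  rw [h5]
  exact_mod_cast h4

theorem card_le {π : Pt S'.W → Pt S.W} (h : Dominates π) (D' : Finset (Crv S'.W))
    (E : ∀ G : Sf.Div S'.W, (∀ C ∈ D', inter G (Finsupp.single C 1) = 0) → 0 ≤ inter G G) :
    (fin_out S S' ∅).toFinset.card ≤ D'.card := by
  classical
  set X := (fin_out S S' ∅).toFinset
  let j : (X →₀ ℤ) →+ Sf.Div S'.W := Finsupp.mapDomain.addMonoidHom Subtype.val
  let Φ : (X →₀ ℤ) →+ (D' → ℤ) := AddMonoidHom.pi fun C =>
    ((interHom S'.all.toRR).flip (Finsupp.single C.1 1)).comp j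
  have h1 : Function.Injective Φ := (injective_iff_map_eq_zero Φ).2 fun g hg => by
    by_contra hc
    refine (E (j g) fun C hC => congrFun hg ⟨C, hC⟩).not_gt (negdef h _ (fun e => hc ?_) ?_)
    · exact Finsupp.mapDomain_injective Subtype.val_injective (e.trans Finsupp.mapDomain_zero.symm)
    · intro C hC
      obtain ⟨x, -, rfl⟩ := Finset.mem_image.1 (Finsupp.mapDomain_support hC)
      exact (fin_out S S' ∅).mem_toFinset.1 x.2
  simpa using LinearMap.finrank_le_finrank_of_injective (f := Φ.toIntLinearMap) h1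

theorem bound {S₀ : Surf K} {D₀ : Finset (Crv S₀.W)} {D : Finset (Crv S.W)}
    (hm : Rg S₀ D₀ ⊆ Rg S D)
    (E : ∀ (S' : Surf K) (D' : Finset (Crv S'.W)),
      (∀ y, Off D' y → ∃ x, Off D x ∧ x.ring = y.ring) → ∀ G : Sf.Div S'.W,
      (∀ C ∈ D', inter G (Finsupp.single C 1) = 0) → 0 ≤ inter G G)
    (Z : Finset (ValuationSubring K)) (hZ : ∀ V ∈ Z, V ∈ Rg S D ∧ V ∉ Rg S₀ D₀) :
    Z.card ≤ D₀.card := by
  classical
  obtain ⟨S', π₀, π, h0, h⟩ := common S₀ S
  have h1 := card_le h0 (fin_out S S' D).toFinset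
    (E S' _ fun y hy => ⟨π y, (piece h D hy).1, (piece h D hy).2.symm⟩)
  have key : ∀ C' : Crv S'.W, C'.pl.ring ∉ Rg S₀ D₀ → C'.pl.ring ∈
      (fin_out S₀ S' ∅).toFinset.image (fun C => C.pl.ring) ∪ D₀.image fun C => C.pl.ring := by
    intro C' hC
    by_cases h2 : C'.pl.ring ∈ Rg S₀ ∅
    · obtain ⟨C, -, e⟩ := h2
      exact Finset.mem_union_right _
        (Finset.mem_image.2 ⟨C, by_contra fun h3 => hC ⟨C, h3, e⟩, e⟩)
    · exact Finset.mem_union_left _
        (Finset.mem_image_of_mem _ ((fin_out S₀ S' ∅).mem_toFinset.2 h2))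
  have h2 := Finset.card_le_card (s := (fin_out S S' D).toFinset.image (fun C => C.pl.ring) ∪ Z)
    (fun V hV => by
      rcases Finset.mem_union.1 hV with h3 | h3
      · obtain ⟨C', h4, rfl⟩ := Finset.mem_image.1 h3
        exact key C' fun h5 => (fin_out S S' D).mem_toFinset.1 h4 (hm h5)
      · obtain ⟨⟨C, -, rfl⟩, h4⟩ := hZ V h3
        obtain ⟨C', e⟩ := up h C
        rw [← e] at h4 ⊢
        exact key C' h4)
  rw [Finset.card_union_of_disjoint (Finset.disjoint_left.2 fun V h3 h4 => by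
    obtain ⟨C', h5, rfl⟩ := Finset.mem_image.1 h3
    exact (fin_out S S' D).mem_toFinset.1 h5 (hZ _ h4).1),
    Finset.card_image_of_injective _ fun _ _ => crv_ext] at h2
  have h3 := h2.trans ((Finset.card_union_le _ _).trans
    (add_le_add Finset.card_image_le Finset.card_image_le))
  omega

end Fn

open Fn in
theorem finite_of (htd : Algebra.trdeg ℂ K = 2) (M : Type) [Nonempty M] (O : M → Subalgebra ℂ K)
    (ch : ∀ m, ∃ A : Subalgebra ℂ K, Algebra.FiniteType ℂ A ∧ IsFractionRing A K ∧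
      (∀ (n : Ideal A) (hn : n.IsMaximal), ∃ m', loc A n hn.isPrime = O m') ∧
      ∃ (n : Ideal A) (hn : n.IsMaximal), loc A n hn.isPrime = O m)
    (tw : ∀ m, Two (O m))
    (sep : ∀ m m' (V : ValuationSubring K), Ct.Dom (O m) V → Ct.Dom (O m') V → O m = O m')
    (E : ∀ (S : Surf K) (D : Finset (Crv S.W)), (∀ x, Off D x → ∃ m, O m = x.ring) →
      ∀ G : Sf.Div S.W, (∀ C ∈ D, inter G (Finsupp.single C 1) = 0) → 0 ≤ inter G G) :
    ∃ (S : Surf K) (D : Finset (Crv S.W)), Snc S D ∧ (∀ x, Off D x → ∃ m, O m = x.ring) ∧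
      ∀ m, ∃ x, Off D x ∧ O m = x.ring := by
  classical
  choose A a1 a2 a3 a4 using ch
  have geo : ∀ m, Geo (O m) := fun m => by
    obtain ⟨n, hn, e⟩ := a4 m
    exact ⟨A m, a1 m, a2 m, n, hn, e.symm⟩
  have model : ∀ I : Finset M, I.Nonempty → ∃ (S : Surf K) (D : Finset (Crv S.W)), Snc S D ∧
      ∀ R, (∃ x : Pt S.W, Off D x ∧ x.ring = R) ↔
        ∃ i ∈ I, ∃ (n : Ideal (A i)) (hn : n.IsMaximal), loc (A i) n hn.isPrime = R := by
    intro I hI
    have := hI.to_subtype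
    obtain ⟨S, D, h1, h2⟩ := res K htd I (fun i => A i) (fun i => a1 i) (fun i => a2 i)
      (fun i n hn => by
        obtain ⟨m, e⟩ := a3 i n hn
        obtain ⟨u, v, h⟩ := tw m
        rw [e]
        exact (reg K htd _ ⟨u, h.1.1⟩ ⟨v, h.2.1.1⟩ (geo m) h).reg)
      (fun i j n hn n' hn' V => by
        obtain ⟨m, e⟩ := a3 i n hn
        obtain ⟨m', e'⟩ := a3 j n' hn'
        rw [e, e']
        exact sep m m' V)
    exact ⟨S, D, h1, fun R => (h2 R).trans
      ⟨fun ⟨i, h⟩ => ⟨i, i.2, h⟩, fun ⟨i, hi, h⟩ => ⟨⟨i, hi⟩, h⟩⟩⟩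
  choose S D s1 s2 using model
  have pc : ∀ I hI x, Off (D I hI) x → ∃ m, O m = x.ring := fun I hI x hx => by
    obtain ⟨i, -, n, hn, e⟩ := (s2 I hI _).1 ⟨x, hx, rfl⟩
    obtain ⟨m, e'⟩ := a3 i n hn
    exact ⟨m, e'.symm.trans e⟩
  have mono : ∀ I hI J hJ, I ⊆ J → ∀ x, Off (D I hI) x → ∃ y, Off (D J hJ) y ∧ y.ring = x.ring :=
    fun I hI J hJ h x hx => by
      obtain ⟨i, hi, h1⟩ := (s2 I hI _).1 ⟨x, hx, rfl⟩
      exact (s2 J hJ _).2 ⟨i, h hi, h1⟩
  have self : ∀ I hI, ∀ m ∈ I, ∃ x, Off (D I hI) x ∧ x.ring = O m := fun I hI m hm =>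
    (s2 I hI _).2 ⟨m, hm, a4 m⟩
  obtain ⟨m₀⟩ : Nonempty M := inferInstance
  let N := fun m : M => Finset.singleton_nonempty m
  have cov : ∀ Z : Finset (ValuationSubring K), (∀ V ∈ Z, ∃ m, V ∈ Rg (S _ (N m)) (D _ (N m))) →
      ∃ I hI, m₀ ∈ I ∧ ∀ V ∈ Z, V ∈ Rg (S I hI) (D I hI) := by
    intro Z hZ
    choose! μ hμ using hZ
    exact ⟨insert m₀ (Z.image μ), Finset.insert_nonempty _ _, Finset.mem_insert_self _ _,
      fun V hV => Rg_mono (mono _ _ _ _ (by simp [Finset.mem_image_of_mem μ hV])) (hμ V hV)⟩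
  have hZ : {V | V ∉ Rg (S _ (N m₀)) (D _ (N m₀)) ∧ ∃ m, V ∈ Rg (S _ (N m)) (D _ (N m))}.Finite := by
    by_contra hc
    obtain ⟨Z, h1, h2⟩ := Set.Infinite.exists_subset_card_eq hc ((D _ (N m₀)).card + 1)
    obtain ⟨I, hI, h3, h4⟩ := cov Z fun V hV => (h1 hV).2
    have := bound (Rg_mono (mono _ (N m₀) I hI (by simpa using h3)))
      (fun S' D' h => E S' D' fun y hy => by
        obtain ⟨x, h5, e⟩ := h y hy
        exact e ▸ pc I hI x h5) Z fun V hV => ⟨h4 V hV, (h1 hV).1⟩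
    omega
  obtain ⟨I, hI, h0, h1⟩ := cov hZ.toFinset fun V hV => (hZ.mem_toFinset.1 hV).2
  have all : ∀ m, Rg (S _ (N m)) (D _ (N m)) ⊆ Rg (S I hI) (D I hI) := fun m V hV => by
    by_cases h : V ∈ Rg (S _ (N m₀)) (D _ (N m₀))
    · exact Rg_mono (mono _ (N m₀) I hI (by simpa using h0)) h
    · exact h1 V (hZ.mem_toFinset.2 ⟨h, m, hV⟩)
  have hB : {R | (∃ m, O m = R) ∧ ¬ ∃ x, Off (D I hI) x ∧ x.ring = R}.Finite := by
    refine ((D I hI).finite_toSet.biUnion
      (t := fun C => {R | (∃ m, O m = R) ∧ Ct.Dom R C.pl.ring}) fun C _ =>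
        Set.Subsingleton.finite ?_).subset ?_
    · rintro _ ⟨⟨m, rfl⟩, h⟩ _ ⟨⟨m', rfl⟩, h'⟩
      exact sep m m' _ h h'
    rintro _ ⟨⟨m, rfl⟩, h⟩
    by_contra hc
    obtain ⟨z, hz, e⟩ := self _ (N m) m (Finset.mem_singleton_self m)
    obtain ⟨y, hy⟩ := iso (S := S I hI) z fun C hC => by
      rw [e] at hC
      by_cases h2 : C ∈ D I hI
      · exact hc (Set.mem_biUnion (x := C) h2 ⟨⟨m, rfl⟩, hC⟩)
      obtain ⟨x, h3, h4⟩ := exists_off h2
      obtain ⟨m', e'⟩ := pc I hI x h4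
      obtain ⟨V, h5, h6⟩ := (cent K _).lift x C h3
      exact h ⟨x, h4, e'.symm.trans
        (sep m m' V (Cn.dom_le (geo m) hC h5.le h6.const) (e' ▸ h6)).symm⟩
    have e1 : z.ring = y.ring := by
      by_contra h2
      obtain ⟨Γ, h3, h4⟩ := core ((mdl _).geo y) (two_pt y) hy h2
      obtain ⟨C, -, h5⟩ := all m ⟨Γ, fun h5 => hz Γ h5 h3, rfl⟩
      exact (cent K _).not_crv y C (h5 ▸ h4)
    refine h ⟨y, fun C hC h2 => ?_, e1.symm.trans e⟩
    obtain ⟨Γ, h3⟩ := trans e1 h2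
    obtain ⟨C', h4, h5⟩ := all m ⟨Γ, fun h5 => hz Γ h5 fun f hf => h3 ▸ h2 f (e1 ▸ hf), rfl⟩
    exact h4 (crv_ext (h5.trans h3) ▸ hC)
  have h2 : ∀ R ∈ hB.toFinset, ∃ m, O m = R := fun R hR => (hB.mem_toFinset.1 hR).1
  choose! ν hν using h2
  have hJ : (I ∪ hB.toFinset.image ν).Nonempty := hI.mono Finset.subset_union_left
  refine ⟨S _ hJ, D _ hJ, s1 _ hJ, pc _ hJ, fun m => ?_⟩
  by_cases h : ∃ x, Off (D I hI) x ∧ x.ring = O m
  · obtain ⟨x, h3, e⟩ := h
    obtain ⟨y, h4, e'⟩ := mono I hI _ hJ Finset.subset_union_left x h3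
    exact ⟨y, h4, (e'.trans e).symm⟩
  · have h3 := hB.mem_toFinset.2 ⟨⟨m, rfl⟩, h⟩
    obtain ⟨x, h4, e⟩ := self _ hJ _ (Finset.mem_union_right _ (Finset.mem_image_of_mem ν h3))
    exact ⟨x, h4, (e.trans (hν _ h3)).symm⟩

end Vale.Agent.P253Y.Res
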